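import Crest.Agent.X212.Mv27.Defs
import Crest.Agent.X212.Br55.Ch

-- ▼ part X212/Mv27/Tw
section

/-!
# Row 212, layer G (helper27): the move of a list of twists
-/

set_option autoImplicit false
set_option linter.unusedSectionVars false
noncomputable section
open Set Function Filter Topology Matrix
open scoped ContDiff Manifold

namespace Crest.Agent.X212.Mv27
open M G75 Wd38 Nm96 Cyl58 Br55 Line51 Orx52

variable {Γ : Nm} {κ lam : Type} [Fintype κ] [Fintype lam] {C : Cx Γ} {Λ : NmL Γ} {K : LCx C Λ} {w : Shp Γ}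
  {hw : w.OK} {X : TP V4} {R : Rz C hw X} {ts : List Tw} {a a' : Wl}

theorem vg_univ : Vg R univ w.l w.r True True = univ := eq_univ_of_forall fun z => by
  rcases Rz.cover hw (X.τ z) with k | k | ⟨j, p, q, k⟩
  exacts [.inl (.inr ⟨trivial, k⟩), .inr ⟨trivial, k⟩,
    .inl (.inl ⟨II_mono p q k, .inr (mem_TA (fun _ _ _ => trivial) k)⟩)]

theorem pos_tws (R : Rz C hw X) : ∀ ts, Pos X.P.I X.P.I (R.tws ts) univ R.O R.O
  | [] => pos_id.2 (oriOn R.O_spec.ori univ).same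
  | t :: l => (R.pos_tw t).comp (pos_tws R l) (fun z _ => (R.tw t).isLocalDiffeomorph z)
      (fun z _ => (R.tws l).isLocalDiffeomorph z) (mapsTo_univ _ _)

theorem ut_b (h : Ut ts a a') : a'.b = a.b := by induction h <;> simp_all [Wl.twist]

theorem ut_ok (h : Ut ts a a') (ht : ∀ t ∈ ts, t.OK w) (k : a.OK w) : a'.OK w := by
  induction h with
  | nil => exact k
  | use t _ ih =>
    have := ih (fun s e => ht s (by simp [e])) k
    exact ⟨this.1, List.forall_mem_cons.2 ⟨ht t (by simp), this.2⟩⟩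
  | clr _ _ ih => exact ih (fun s e => ht s (by simp [e])) k

theorem ut_bn (G : Tab C.kd κ) (h : Ut ts a a') (k : a.b.OK w) : ∀ (k' : a'.b.OK w) (E : a.b.ty w = a'.b.ty w),
    (∀ p, R.tws ts ((R.bn a k).j p) = (R.bn a' k').j (cY C.kd E p.1, p.2)) ∧
      ∀ s z, R.tws ts z ∈ (R.bn a' k').wall.sd s ↔ z ∈ (R.bn a k).wall.sd s := by
  induction h with
  | nil => exact fun _ _ => ⟨fun _ => rfl, fun _ _ => Iff.rfl⟩
  | @use l a a' t _ ih =>
    exact fun k' E => ⟨fun p => congrArg (R.tw t) ((ih k k' E).1 p), fun s z =>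
      ((twId R G (W := fun _ : Unit => a') (fun _ => k') (.refl _) (.refl _) (W' := fun _ => a'.twist t)
        (fun _ => k') t fun _ => .inl rfl).sd () s _ trivial).trans ((ih k k' E).2 s z)⟩
  | @clr l a a' t _ c ih =>
    intro k' E
    exact ⟨fun p => (congrArg (R.tw t) ((ih k k' E).1 p)).trans
      (R.tw_off _ (disjoint_right.1 (R.K_clr c) (R.range_bn _ k' ▸ mem_range_self _))), fun s z =>
      ((twId R G (W := fun _ : Unit => a') (fun _ => k') (.refl _) (.refl _) (W' := fun _ => a')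
        (fun _ => k') t fun _ => .inr ⟨rfl, c⟩).sd () s _ trivial).trans ((ih k k' E).2 s z)⟩

/-- the isometry over a list of twists -/
theorem exists_tws (G : Tab C.kd κ) : ∀ (ts : List Tw) (_ : ∀ t ∈ ts, t.OK w) {n n₁ : Wd38.Wt} (_ : n₁ = acts w ts n)
    {l l' : Type} [Fintype l] [Fintype l'] (W : WL K R n l) (W₁ : WL K R n₁ l'),
    ∃ U, Uni X.P.I W₁.p (fun z => W.p (R.tws ts z)) U univ ∧ ∀ a a', Ut ts a a' → ∀ (k : a.OK w) (k' : a'.b.OK w)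
      (E : a.b.ty w = a'.b.ty w) m₁ m, IsMk k.1 a.tw W₁ m₁ → IsMk k' a'.tw W m →
        o2 w (acts w a'.tw n) a'.b = o2 w (acts w a.tw n₁) a.b ∧
          ∀ q, m (cY C.kd E q.1, q.2) * U ((R.bn a k.1).j q) = m₁ q
  | [], _, n, _, rfl, _, _, _, _, W, W₁ => by
    have g : Ga w w n n 0 w.l w.r univ := ga_self hw (fun _ _ => ⟨rfl, rfl⟩) fun _ _ _ => trivial
    obtain ⟨U, k⟩ := exists_gm (eL := True) (eR := True) W₁ W (lc_refl le_rfl le_rfl) g (cs_refl rfl rfl)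
    rw [vg_univ] at k
    refine ⟨U, k.toUni, fun a a' h o _ _ m₁ m M₁ M => ?_⟩
    cases h
    exact ⟨rfl, fun q => (mk_self g o ⟨trivial, trivial, fun _ _ _ _ _ => trivial⟩ M₁ M).2 isOpen_univ
      (GM.cp (lc_refl le_rfl le_rfl) g subset_rfl k) q trivial⟩
  | t :: l, ht, n, _, rfl, _, _, _, _, W, W₁ => by
    have o := ht t (by simp)
    have hl : ∀ s ∈ l, s.OK w := fun s e => ht s (by simp [e])
    obtain ⟨W₂⟩ := exists_WL K R (act_ok W.ok o)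
    obtain ⟨U, T⟩ := exists_twx o W W₂
    obtain ⟨U', u, H⟩ := exists_tws G l hl rfl W₂ W₁
    refine ⟨fun z => U (R.tws l z) * U' z, u.trans (T.uni.comp ⟨fun z _ => (R.tws l).contMDiff z, mapsTo_univ _ _⟩),
      fun a a' h k k' E m₁ m M₁ M => ?_⟩
    cases h with
    | @use _ _ a' _ h =>
      have k₂ := ut_ok h hl k
      obtain ⟨m₂, M₂⟩ := exists_isMk k₂.1 _ k₂.2 W₂
      obtain ⟨e, e'⟩ := H a a' h k k' E m₁ m₂ M₁ M₂
      refine ⟨e, fun q => ?_⟩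
      rw [← Matrix.mul_assoc, (ut_bn G h k.1 k' E).1 q, ← e' q]
      exact congrArg (· * _) (mk_use (l := a'.tw) k₂ T M M₂ _)
    | clr h c =>
      have k₂ := ut_ok h hl k
      obtain ⟨m₂, M₂⟩ := exists_isMk k₂.1 _ k₂.2 W₂
      obtain ⟨e, e'⟩ := H a a' h k k' E m₁ m₂ M₁ M₂
      have c' := mk_clr k₂ c T M M₂
      refine ⟨c'.1.trans e, fun q => ?_⟩
      rw [← Matrix.mul_assoc, (ut_bn G h k.1 k' E).1 q, ← e' q]
      exact congrArg (· * _) (c'.2 _)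

theorem cp_acts (μ : ℤ × ℤ) : ∀ (ts : List Tw) (n : Wd38.Wt), cp (acts w ts n) μ = acts w ts (cp n μ)
  | [], _ => rfl
  | t :: l, n => cp_acts μ l (t.act w n)

variable {G : Tab C.kd κ}

theorem lid1 {w' : Shp Γ} {hw' : w'.OK} {ls ls' : Finset Bs} {n n' : Wd38.Wt} {V : Matrix lam K3 ℂ}
    {W : WL K (C.rz hw) n lam} {W' : WL K (C.rz hw') n' lam} {N : ML (um G hw ls) lam} {N' : ML (um G hw' ls') lam}
    (h : IsN V W N) (h' : IsN V W' N') {ψ} (pos) {a : UW w ls} {a' : UW w' ls'} (k : Mch hw hw' ψ a a')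
    {O : Set (C.X hw).P.M} (hO : IsOpen O) (hs : O ⊆ ψ.source) {u} (hu : Uni (C.X hw).P.I W.p (fun z => W'.p (ψ z)) u O)
    (e : ∀ m m', IsMk a.2.1.1 a.1.tw W m → IsMk a'.2.1.1 a'.1.tw W' m' →
      o2 w' (acts w' a'.1.tw n') a'.1.b = o2 w (acts w a.1.tw n) a.1.b ∧ ∀ q, ((C.rz hw).bn a.1 a.2.1.1).j q ∈ O →
        m' (cY C.kd k.E q.1, q.2) * u (((C.rz hw).bn a.1 a.2.1.1).j q) = m q) : LId N N' (mid1 G pos k) O u :=
  lid0 h h' (mid1 G pos k) (fun _ => k.E) (fun _ => rfl) hO hs hu fun _ => e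

variable [DecidableEq lam] {P : Pm Γ} {L : LP C G P lam}

/-- **MV-TW** -/
theorem twStmt (H : Nat L) : TwStmt L := fun {w ls} h μ ts ht => by
  obtain ⟨V, hV⟩ := H.isN
  have mch : ∀ a a' : UW w ls, Ut ts a.1 a'.1 → Mch h.w h.w ((C.rz h.w).tws ts).toPartialDiffeomorph a a' :=
    fun a a' k => have E := congrArg (Bs.ty w) (ut_b k).symm
      ⟨E, fun p => ⟨trivial, (ut_bn G k _ _ E).1 p⟩, fun s z _ => (ut_bn G k _ _ E).2 s z⟩
  have pos : Pos (C.X h.w).P.I (C.X h.w).P.I ((C.rz h.w).tws ts).toPartialDiffeomorph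
    ((C.rz h.w).tws ts).toPartialDiffeomorph.source (C.rz h.w).O (C.rz h.w).O := pos_tws (C.rz h.w) ts
  have key : ∀ n, ∃ U, ∀ (hn : (f0 w ls).LOK P (acts w ts n)) (hn' : (f0 w ls).LOK P n),
      Uni (C.X h.w).mf.I (L.N h hn μ).p (fun z => (L.N h hn' μ).p ((C.rz h.w).tws ts z)) U univ ∧
      ∀ a a' (k : Ut ts a.1 a'.1), LId (L.N h hn μ) (L.N h hn' μ) (mid1 G pos (mch a a' k)) univ U := fun n => by
    by_cases e : (f0 w ls).LOK P (acts w ts n) ∧ (f0 w ls).LOK P n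
    · obtain ⟨U, u, k⟩ := exists_tws G ts (fun t e => (ht t e).1) (cp_acts μ ts n) (L.W h e.2 μ) (L.W h e.1 μ)
      refine ⟨U, fun hn hn' => ⟨by rw [L.p, L.p]; exact u, fun a a' o => ?_⟩⟩
      refine lid1 (hV h hn μ) (hV h hn' μ) pos (mch a a' o) isOpen_univ subset_rfl u fun m m' M M' => ?_
      exact (k _ _ o a.2.1 _ _ m m' M M').imp_right fun c q _ => c q
    · exact ⟨0, fun p q => (e ⟨p, q⟩).elim⟩
  choose U hU using key
  exact ⟨⟨_, pos, isOpen_univ, subset_rfl, mch, U, fun n p q => (hU n p q).1, fun n p q => (hU n p q).2⟩, rfl⟩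

end Crest.Agent.X212.Mv27
end
end

-- ▼ part X212/Mv27/Gen
section

/-!
# Row 212, layer G (helper27): moves that respect the lens walls

* `GU` : comparisons with a phase; `Nat.mod`; `exists_mv` : a move from comparisons of the lines.
-/

set_option autoImplicit false
set_option linter.unusedSectionVars false
noncomputable section
open Set Function Filter Topology Matrix
open scoped ContDiff Manifold

namespace Crest.Agent.X212.Mv27
open M G75 Wd38 Nm96 Cyl58 Br55 Line51 Orx52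

variable {Γ : Nm} {κ lam : Type} [Fintype κ] [Fintype lam] {C : Cx Γ} {w w' : Shp Γ} {hw : w.OK} {hw' : w'.OK}

section gu
variable {Λ : NmL Γ} {K : LCx C Λ} {X X' : TP V4} {R : Rz C hw X} {R' : Rz C hw' X'} {n n' n₁ n₁' : Wd38.Wt}
  {l l' : Type} [Fintype l] [Fintype l'] {W : WL K R n l} {W' : WL K R' n' l'} {W₁ : WL K R n₁ l}
  {W₁' : WL K R' n₁' l'} {φ : X.P.M → X'.P.M} {c c₁ : X.P.M → Circle} {V O : Set X.P.M}
  {u u₁ : X.P.M → Matrix l' l ℂ}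

variable (W W' φ c V u) in
/-- `u` matches the global sections up to the phase `c` on a dense open set -/
def GU : Prop := ∃ D, IsOpen D ∧ Dense D ∧ D ⊆ Dw K R w.l w.r True True ∧ GM W W' φ D c V u

theorem GU.uni (h : GU W W' φ c V u) : Uni X.P.I W.p (fun z => W'.p (φ z)) u V := h.choose_spec.2.2.2.toUni

theorem GU.unique (h : GU W W' φ c V u) (h₁ : GU W₁ W₁' φ c₁ V u₁) (hO : IsOpen O) (v : O ⊆ V)
    (e : ∀ z ∈ O, W₁.p z = W.p z ∧ W₁.g z = W.g z ∧ W₁'.g (φ z) = W'.g (φ z) ∧ c₁ z = c z) : EqOn u u₁ O :=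
  let ⟨D, o, d, s, m⟩ := h
  let ⟨D₁, _, d₁, _, m₁⟩ := h₁
  GM.unique (D := D ∩ D₁) (m.mono subset_rfl fun _ k => k.2.1) (m₁.mono subset_rfl fun _ k => k.2.2)
    (inter_subset_left.trans s) hO (fun z _ => (d.inter_of_isOpen_left d₁ o) z) v v e

theorem GU.eq_p {W' : WL K R' n' l} {u} (h : GU W W' φ c V u) (hO : IsOpen O) (v : O ⊆ V)
    (e : ∀ z ∈ O, W'.g (φ z) = W.g z ∧ c z = 1) : EqOn u W.p O :=
  let ⟨_, _, d, s, m⟩ := h
  (m.toUni.mono v).ext_sec hO (fun z _ => d z) (W.uni.mono (subset_univ _)) fun z k o => ⟨_, W.unit (s o), by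
    rw [m.eq z (v k) o, (e z k).1, (e z k).2, Circle.coe_one, one_smul, (W.unit (s o)).left]⟩

end gu

variable {G : Tab C.kd κ} {ls ls' : Finset Bs} {a : UW w ls} {a' : UW w' ls'} {z : (C.X hw).P.M} {s : Bool}

theorem isOpen_hf {X : Mf 4} {A : Type} (M : Mark X A κ) (a : A) (b : Bool) : IsOpen (hf M a b) :=
  ((M.sys.w a).op_sd b).union (M.sys.w a).op_band

theorem mch_hf {ψ} (h : Mch hw hw' ψ a a') (k : z ∈ ψ.source) (e : z ∈ hf (um G hw ls) a s) :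
    ψ z ∈ hf (um G hw' ls') a' s :=
  e.imp (h.sd s z k).2 fun ⟨p, f⟩ => ⟨_, (h.j p).2.symm.trans (congrArg ψ f)⟩

theorem trc1 (h : a.1.tw = []) : Sid48.Trc (C.rz hw) (um G hw ls).sys ((C.rz hw).tws []) (fun a => a.1.b) {a} :=
  Sid48.trc_mark _ G _ _ fun _ k => k ▸ Sid48.utw_nil h

theorem hf_false (h : a.1.tw = []) : z ∈ hf (um G hw ls) a false ↔ z ∈ (C.rz hw).Z a.1.b (Iio (a.1.b.r0 + 1 / 4)) :=
  (trc1 h).hf_false rfl

theorem hf_true (h : a.1.tw = []) : z ∈ hf (um G hw ls) a true ↔ z ∉ (C.rz hw).Z a.1.b (Iic (a.1.b.r0 - 1 / 4)) :=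
  (trc1 h).hf_true rfl

theorem mch_lc {ψ x y} (c : Lc (C.rz hw) (C.rz hw') 0 x y ψ) (e : a.1 = a'.1) (m : a.1.Mt w w' 0 x y) :
    Mch hw hw' ψ a a' :=
  have e' : a'.1 = a.1.sh 0 := e.symm.trans (Wl.sh_zero _).symm
  have E : a.1.b.ty w = a'.1.b.ty w' := e' ▸ m.1.ty
  ⟨E, (c.bn e' m _ _ E).1, (c.bn e' m _ _ E).2⟩

variable [DecidableEq lam] {P : Pm Γ} {L : LP C G P lam}

theorem lens_eq (h : (f0 w ls).OK P) {b : Bs} (k : b ∈ ls) : b.arc ∧ b.hi = b.lo + 3 ∧ b.r0 = 3 / 2 := by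
  obtain ⟨x, rfl, -⟩ := h.ls b k
  exact ⟨trivial, rfl, by simp [Bs.r0]⟩

theorem hf_II (h : (f0 w ls).OK P) (k : IsL ls a.1) :
    hf (um G h.w ls) a false ⊆ (C.X h.w).τ ⁻¹' II a.1.b.lo a.1.b.hi := fun _ e =>
  (C.rz h.w).D_II (((C.rz h.w).arc_eq (lens_eq h k.2).1).1 ▸ (hf_false k.1).1 e :)

theorem Nat.mod (H : Nat L) (h : (f0 w ls).OK P) (h' : (f0 w' ls').OK P) (a : UW w ls) (a' : UW w' ls') (ha ha')
    {ψ x y} (c : Lc (C.rz h.w) (C.rz h'.w) 0 x y ψ) (e : a.1 = a'.1) (h1 : x ≤ a.1.b.lo) (h2 : a.1.b.hi ≤ y)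
    (s : hf (um G h.w ls) a false ⊆ ψ.source) :
    EqOn (L.I h' a' ha').ψ (ψ ∘ (L.I h a ha).ψ) (hf L.Lm.M () false) := fun z hz => by
  obtain ⟨wm, hm, f, x₀, r, H⟩ := H.cr
  obtain ⟨x₁, y₁, φ, p, q, c₁, k⟩ := H h a ha
  obtain ⟨x₂, y₂, φ', p', q', c₂, k'⟩ := H h' a' ha'
  obtain ⟨t, s₁, e₁⟩ := k z hz
  obtain ⟨-, s₂, e₂⟩ := k' z hz
  have m := s (L.img h a ha ▸ mem_image_of_mem _ hz)
  obtain ⟨a, oa⟩ := a
  obtain ⟨_, oa'⟩ := a'
  obtain rfl : a = _ := e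
  obtain ⟨g, g', -⟩ := lens_eq h ha.2
  have r₁ := Sid48.OK_rg oa.1.1 g
  have r₂ := Sid48.OK_rg oa'.1.1 g
  obtain ⟨v, tv, ev⟩ := surj_B (R := C.rz hm) r t
  rw [← ev] at s₁ s₂ e₁ e₂
  obtain ⟨v₁, l₁, f₁⟩ := c₁.ex' r r₁ (by ring) (g'.trans (by ring)) p q tv s₁
  obtain ⟨v₂, l₂, f₂⟩ := c₂.ex' r r₂ (by ring) (g'.trans (by ring)) p' q' tv s₂
  rw [e₁, ← f₁] at m
  rw [Function.comp_apply, e₁, e₂, ← f₁, ← f₂]
  refine (c.app r₁ r₂ (add_zero _).symm (add_zero _).symm h1 h2 ?_ m ((l₁.symm.trans l₂).cast (by simp))).symm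
  have := (mem_II_nr l₁).2 tv
  rwa [add_sub_cancel, show x₀ + 3 + (a.b.lo - x₀) = a.b.hi by rw [g']; ring] at this

theorem out_p (h : (f0 w ls).OK P) {n} (hn : (f0 w ls).LOK P n) (μ) (k : IsL ls a.1)
    (hn' : (f0 w ls).LOK P (fl a.1.b n)) : EqOn (L.W h hn' μ).p (L.W h hn μ).p (hf (um G h.w ls) a true) :=
  fun z e => by
    have i := (L.out h hn μ a k hn').uni.iso z e
    rw [L.p, L.p] at i
    exact i.tgt.symm.trans (((L.W h hn μ).ln.prj z trivial).refl.tgt)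

/-- **a move from comparisons** -/
theorem exists_mv (H : Nat L) (h : (f0 w ls).OK P) (h' : (f0 w' ls').OK P) (μ) {g g' : Wd38.Wt → Wd38.Wt}
    {Dw : Wl → Wl → Prop} {V : Set (C.X h.w).P.M} {ψ} (pos) (op : IsOpen V) (sub : V ⊆ ψ.source)
    (mch : ∀ (a : UW w ls) (a' : UW w' ls'), Dw a.1 a'.1 → Mch h.w h'.w ψ a a') (c : Wd38.Wt → (C.X h.w).P.M → Circle)
    (hu : ∀ n (hn : (f0 w ls).LOK P (g n)) (hn' : (f0 w' ls').LOK P (g' n)),
      ∃ u, GU (L.W h hn μ) (L.W h' hn' μ) ψ (c n) V u ∧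
        ∀ a a' (k : Dw a.1 a'.1), LId (L.N h hn μ) (L.N h' hn' μ) (mid1 G pos (mch a a' k)) V u)
    (hl : ∀ a : UW w ls, IsL ls' a.1 → a.1.b ∈ ls ∧ Dw a.1 a.1 ∧ hf (um G h.w ls) a false ⊆ V ∧
      (∃ x y, Lc (C.rz h.w) (C.rz h'.w) 0 x y ψ ∧ x ≤ a.1.b.lo ∧ a.1.b.hi ≤ y) ∧
      ∀ n, g (fl a.1.b n) = fl a.1.b (g n) ∧ g' (fl a.1.b n) = fl a.1.b (g' n) ∧
        sgl a.1.b (g n) = sgl a.1.b (g' n) ∧ c (fl a.1.b n) = c n ∧ ∀ z ∈ hf (um G h.w ls) a false, c n z = 1) :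
    ∃ m : Mv L h h' μ g g' Dw V, m.ψ = ψ := by
  have key : ∀ n, ∃ u, ∀ (hn : (f0 w ls).LOK P (g n)) (hn' : (f0 w' ls').LOK P (g' n)),
      GU (L.W h hn μ) (L.W h' hn' μ) ψ (c n) V u ∧
        ∀ a a' (k : Dw a.1 a'.1), LId (L.N h hn μ) (L.N h' hn' μ) (mid1 G pos (mch a a' k)) V u := fun n => by
    by_cases e : (f0 w ls).LOK P (g n) ∧ (f0 w' ls').LOK P (g' n)
    · exact (hu n e.1 e.2).imp fun _ k _ _ => k
    · exact ⟨0, fun p q => (e ⟨p, q⟩).elim⟩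
  choose u hU using key
  have md : ∀ (a : UW w ls) (a' : UW w' ls') ha ha', a.1 = a'.1 →
      EqOn (L.I h' a' ha').ψ (ψ ∘ (L.I h a ha).ψ) (hf L.Lm.M () false) := fun a a' ha ha' e =>
    let ⟨_, _, s, ⟨_, _, c, p, q⟩, _⟩ := hl a (e ▸ ha')
    H.mod h h' a a' ha ha' c e p q (s.trans sub)
  refine ⟨⟨⟨ψ, pos, op, sub, mch, u, fun n p q => by rw [L.p, L.p]; exact (hU n p q).1.uni,
    fun n p q => (hU n p q).2⟩, fun a k n hn hn' => ?_, md⟩, rfl⟩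
  obtain ⟨b, d, s, -, e⟩ := hl a k
  obtain ⟨e1, e2, e3, e4, e5⟩ := e n
  have k₀ : IsL ls a.1 := ⟨k.1, b⟩
  let a' : UW w' ls' := ⟨a.1, ad_isL h' ⟨k.1, Finset.mem_union_right _ k.2⟩⟩
  have key : ∀ {m m'}, m = fl a.1.b (g n) → m' = fl a.1.b (g' n) → ∀ (p : (f0 w ls).LOK P m)
      (q : (f0 w' ls').LOK P m'), ∀ z ∈ V ∩ hf (um G h.w ls) a true, (L.W h hn μ).p z = (L.W h p μ).p z ∧
        (L.W h hn μ).g z = (L.W h p μ).g z ∧ (L.W h' hn' μ).g (ψ z) = (L.W h' q μ).g (ψ z) := by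
    rintro _ _ rfl rfl p q z t
    exact ⟨(out_p h hn μ k₀ p t.2).symm, (H.out h hn μ a k₀ p t.2).symm,
      (H.out h' hn' μ a' k q (mch_hf (mch a a' d) (sub t.1) t.2)).symm⟩
  have p := e1 ▸ lok_fl h hn b
  have q := e2 ▸ lok_fl h' hn' k.2
  refine ⟨(hU _ p q).1.unique (hU n hn hn').1 (op.inter (isOpen_hf _ _ _)) inter_subset_left fun z t =>
    let ⟨i, j, o⟩ := key e1 e2 p q z t; ⟨i, j, o, congrFun e4.symm z⟩, ?_⟩
  rw [L.p]
  refine (hU n hn hn').1.eq_p (isOpen_hf _ _ _) s fun z t => ⟨?_, e5 z t⟩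
  obtain ⟨γ, hγ⟩ := H.ins
  obtain ⟨z, o, rfl⟩ := (L.img h a k₀).ge t
  rw [hγ h hn μ a k₀ z o, e3, ← hγ h' hn' μ a' k z o, md a a' k₀ k rfl o]
  rfl

end Crest.Agent.X212.Mv27
end
end

-- ▼ part X212/Mv27/Sur

/-!
# Row 212, layer G (helper27): the move of a surgery
-/

set_option autoImplicit false
set_option linter.unusedSectionVars false
noncomputable section
open Set Function Filter Topology Matrix
open scoped ContDiff Manifold

namespace Crest.Agent.X212.Mv27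
open M G75 Wd38 Nm96 Cyl58 Br55 Line51 Orx52

variable {Γ : Nm} {κ lam : Type} [Fintype κ] [Fintype lam] {C : Cx Γ} {w w' : Shp Γ} {hw : w.OK} {hw' : w'.OK}
  {G : Tab C.kd κ} {ls ls' : Finset Bs} {x y : ℤ}

theorem lid2 {Λ : NmL Γ} {K : LCx C Λ} {n n' : Wd38.Wt} {V : Matrix lam K3 ℂ}
    {W : WL K (C.rz hw) n lam} {W' : WL K (C.rz hw') n' lam} {N : ML (um G hw ls) lam} {N' : ML (um G hw' ls') lam}
    (h : IsN V W N) (h' : IsN V W' N') {ψ} (pos) {a : UW w ls} {a' : UW w' ls'} (k : Mch hw hw' ψ a a')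
    {O : Set (C.X hw).P.M} (hO : IsOpen O) (hs : O ⊆ ψ.source) {u A} (c : Lc (C.rz hw) (C.rz hw') 0 x y ψ)
    (g : Ga w w' n n' 0 x y A) (e : a.1 = a'.1) (m : a.1.Mt w w' 0 x y) (t : WA A a.1) (p : Cp W W' ψ 0 x y O u) :
    LId N N' (mid1 G pos k) O u :=
  lid h h' (mid1 G pos k) (fun _ => k.E) (fun _ => rfl) hO hs p.uni
    fun _ => ⟨0, x, y, A, c, g, e.symm.trans (Wl.sh_zero _).symm, m, t, p⟩

theorem mt_of {a : Wl} (o : a.OK w) {A : Set ℤ} (hA : ∀ j ∈ A, w'.s j = w.s j) (t : WA A a) (h1 : x ≤ a.b.lo)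
    (h2 : a.b.hi ≤ y) (h3 : a.b.lo < y) (h4 : ∀ t ∈ a.tw, x < t.x ∧ t.y < y) : a.Mt w w' 0 x y := by
  have e : ∀ j ∈ A, w'.s (j + 0) = w.s j := fun j k => by rw [add_zero, hA j k]
  obtain ⟨b, l⟩ := a
  refine ⟨?_, fun s k => ?_⟩
  · cases b
    iterate 3 exact ⟨h1, h2, congrArg Sl.r (e _ t.1), congrArg Sl.l (e _ t.2.1)⟩
    all_goals exact ⟨h1, h3, congrArg Sl.r (e _ t.1)⟩
  · have r := (o.2 s k).rg.lt.le
    exact ⟨o.2 s k, (h4 s k).1, (h4 s k).2, congrArg Sl.r (e _ (t.2.2 s k _ le_rfl r)),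
      fun j p q => e _ (t.2.2 s k j p.le q.le), congrArg Sl.l (e _ (t.2.2 s k _ r le_rfl))⟩

theorem mt_sur (S : w.Sur w' x y) {a : Wl} (o : a.OK w) (k : a.Out x y) :
    a.Mt w w' 0 w.l w.r ∧ WA {j | j ≤ x ∨ y ≤ j} a :=
  have t : WA {j | j ≤ x ∨ y ≤ j} a := ⟨k.1, k.2.1, fun t e j p q => by
    have := k.2.2 t e; simp only [mem_ofPred_eq]; omega⟩
  ⟨mt_of o S.eq t (Sid48.OK_lo o.1).1 (Sid48.OK_hi o.1).2 (Sid48.OK_lo o.1).2
    fun s e => ⟨by linarith [(o.2 s e).rg.lo], (o.2 s e).rg.hi⟩, t⟩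

theorem hf_rA {r : UW w ls} (e : r.1 = Bs.rA x y) :
    hf (um G hw ls) r true = ((C.rz hw).D x y (Iic ((y - x) / 2 - 1 / 4)))ᶜ := Set.ext fun z => by
  rw [hf_true (congrArg Wl.tw e), e]
  rfl

variable [DecidableEq lam] {P : Pm Γ} {L : LP C G P lam}

/-- **MV-SUR** -/
theorem surStmt (H : Nat L) : SurStmt L := fun {w w' ls ls'} h h' μ x y g r r' e e' S el far nin _ chg => by
  obtain ⟨V, hV⟩ := H.isN
  have Hc := S.hc h.w h'.w
  obtain ⟨ψ, c⟩ := exists_cm (R := C.rz h.w) (R' := C.rz h'.w) Hc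
  have lt := S.rg.lt
  have ro : (Bs.rA x y : Wl).Out x y := ⟨.inl le_rfl, .inr le_rfl, nofun⟩
  have out : ∀ {a a' : Wl}, a = a' ∧ (a = Bs.rA x y ∨ a.Out x y ∧ a.b.Far (.rA x y)) → a.Out x y :=
    fun k => k.2.elim (· ▸ ro) And.left
  have sub : hf (um G h.w ls) r true ⊆ ψ.source := fun z k => c.sur S ((hf_rA e).le k)
  have sep : ∀ a : UW w ls, IsL ls' a.1 → a.1.b ∈ ls ∧ (y < a.1.b.lo ∨ a.1.b.hi < x) := fun a k => by
    obtain ⟨k1, k2⟩ := Finset.mem_filter.1 (el ▸ k.2 :)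
    refine ⟨k1, ?_⟩
    have := (lens_eq h k1).2.1
    rcases far _ k1 with f | f | f | f
    exacts [.inl f, .inr f, (k2 ⟨f.2.1, f.2.2.1⟩).elim, (nin _ k1 (by
      have f1 : a.1.b.lo < x := f.2.1
      have f2 : y < a.1.b.hi := f.2.2.1
      congr 1 <;> omega)).elim]
  have ins : ∀ a : UW w ls, IsL ls' a.1 → hf (um G h.w ls) a false ⊆ hf (um G h.w ls) r true := fun a k z t => by
    have u := hf_II h ⟨k.1, (sep a k).1⟩ t
    rw [hf_rA e]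
    exact fun d => (sep a k).2.elim (fun f => Rz.II_disj f ((C.rz h.w).D_II d) u)
      fun f => Rz.II_disj f u ((C.rz h.w).D_II d)
  obtain ⟨m, rfl⟩ := exists_mv H h h' μ (g := g) (g' := id)
    (Dw := fun a a' => a = a' ∧ (a = Bs.rA x y ∨ a.Out x y ∧ a.b.Far (.rA x y))) c.pos (isOpen_hf _ _ _) sub
    (fun a a' k => mch_lc c.toLc k.1 (mt_sur S a.2.1 (out k)).1) (fun _ _ => 1) (fun n hn hn' => by
      have ga : Ga w w' (cp (g n) μ) (cp n μ) 0 w.l w.r {j | j ≤ x ∨ y ≤ j} := ⟨h.w.lt, fun j k => by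
        have := chg.1 n j
        rw [add_zero, add_zero] at this
        rw [Gd, add_zero, S.eq j k]
        exact ⟨fun _ => ⟨rfl, (this.2 k).symm⟩, fun _ => ⟨rfl, (this.1 k).symm⟩⟩,
        fun j J _ _ k => by_contra fun f =>
          Shp.rod_iff.1 (S.rg.fr j (by simp at f; omega) (by simp at f; omega)) J k⟩
      obtain ⟨u, k⟩ := exists_gm (L.W h hn μ) (L.W h' hn' μ) c.toLc ga (cs_cm Hc c (fun _ => rfl) fun _ => rfl)
      replace k := k.mono ((hf_rA (G := G) e).trans_subset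
        (compl_D S.rg (Iic_subset_Iic.2 (by linarith)) fun _ f => f)) inter_subset_right
      have p := GM.cp c.toLc ga sub k
      refine ⟨u, ⟨_, isOpen_Dw, dense_Dw, subset_rfl, k.congr fun z _ _ => ⟨rfl, ?_⟩⟩, fun a a' o =>
        lid2 (hV h hn μ) (hV h' hn' μ) _ _ (isOpen_hf _ _ _) sub c.toLc ga o.1 (mt_sur S a.2.1 (out o)).1
          (mt_sur S a.2.1 (out o)).2 p⟩
      rw [lm_one ⟨_, h.w.sl⟩ ⟨_, Hc.l trivial ▸ h'.w.sl⟩])
    fun a k => by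
      obtain ⟨k1, k2⟩ := sep a k
      have := (lens_eq h k1).2.1
      exact ⟨k1, ⟨rfl, .inr ⟨⟨by omega, by omega, k.1 ▸ nofun⟩, k2.symm.imp_right .inl⟩⟩, ins a k,
        ⟨_, _, c.toLc, (Sid48.OK_lo a.2.1.1).1, (Sid48.OK_hi a.2.1.1).2⟩, fun n => ⟨chg.2 _ k.2 n, rfl,
          by rw [sgl, (chg.1 n _).1 (by omega)]; rfl, rfl, fun _ _ => rfl⟩⟩
  refine ⟨m, Subset.antisymm ?_ fun z k => ?_, fun a k => ⟨fun f => ins a ⟨k.1, f⟩, fun f => by_contra fun o => ?_⟩⟩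
  · rintro _ ⟨z, k, rfl⟩
    exact mch_hf (m.mch r r' ⟨e.trans e'.symm, .inl e⟩) (sub k) k
  · have c' := c.symm Hc
    rw [neg_zero, ← Hc.l trivial, ← Hc.r trivial] at c'
    rw [hf_rA e'] at k
    have t := c'.sur S.symm k
    refine ⟨_, (hf_rA e).ge fun d => k ?_, m.ψ.right_inv t⟩
    exact m.ψ.right_inv t ▸ (c.D (add_zero _).symm (add_zero _).symm S.rg.lo S.rg.hi (m.ψ.map_target t)).2 d
  · obtain ⟨o1, o2⟩ : x < a.1.b.lo ∧ a.1.b.hi < y := by_contra fun s => o (el ▸ Finset.mem_filter.2 ⟨k.2, s⟩)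
    obtain ⟨g1, g2, g3⟩ := lens_eq h k.2
    obtain ⟨z, t, -⟩ := ((um G h.w ls).sys.w a).ne true
    have t' : z ∈ hf (um G h.w ls) a false := .inr t
    have d := (hf_false k.1).1 t'
    rw [((C.rz h.w).arc_eq g1).1, g3] at d
    obtain ⟨ρ, ρ', k1, k2, k3⟩ := (C.rz h.w).D_up S.rg o1.le o2.le d
    have k4 : _ < ρ := not_le.1 fun s => (hf_rA e).le (f t') ((k3 _).2 s)
    have p1 := Sid48.cast_lt o1
    have p2 := Sid48.cast_lt o2
    have p3 : (a.1.b.hi : ℝ) = a.1.b.lo + 3 := by exact_mod_cast g2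
    exact (Rz.abs_cc _ _ _ _ (r := ρ - ρ') (by linarith [mem_Iio.1 k1]) (by linarith [mem_Iio.1 k1])).not_ge
      ((le_abs_self _).trans k2)

end Crest.Agent.X212.Mv27
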